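import Vale.Agent.P344.Main

/-!
P344: every linear circuit for the Fourier transform of order n has at least 2n-2 additive gates and
at least n - tau(n) scalar gates, hence at least 3n - tau(n) - 2 >= 3n - 2 sqrt(n) - 2 gates.
-/

namespace Vale.Agent.Results.P344.ThreeN

open Vale.Agent.P344

theorem result (n : ℕ) (hn : 2 ≤ n) (gs : List Gate) (h : Computes n gs) :
    2 * n ≤ adds gs + 2 ∧ n ≤ muls gs + n.divisors.card ∧
    3 * n ≤ gs.length + n.divisors.card + 2 ∧ 3 * n ≤ gs.length + 2 * Nat.sqrt n + 2 := by
  obtain ⟨out, hout⟩ := h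
  have hζ := Complex.isPrimitiveRoot_exp n (by omega)
  have hrows := rows_mem (by omega) _ gs out hout
  have h1 := adds_lower hn _ hζ gs hrows
  have h2 := muls_lower n (by omega) _ hζ gs hrows
  have h3 := adds_add_muls gs
  have h4 := card_divisors_le n
  refine ⟨h1, by omega, by omega, by omega⟩

end Vale.Agent.Results.P344.ThreeN
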